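import Vale.Agent.Lib.P344.Gain

namespace Vale.Agent.Results.P344.B_gain

open Vale.Agent.Lib.P344

/-- For every circuit for `F_n` with `a` additions and subtractions and every set `I` of outputs,
`(|I|/2) log₂ n ≤ a + ∑_{j ∈ I} log₂ (gain of output j)`; consequently at most
`a / (θ log₂ n)` outputs have gain at most `n ^ (1/2 - θ)`. -/
theorem result :
    (∀ (n : ℕ) (C : Circuit n), C.Computes (dft n) → ∀ I : Finset (Fin n),
      (I.card : ℝ) / 2 * Real.logb 2 n ≤
        addCount C.gates + ∑ j ∈ I, Real.logb 2 (C.gain (C.out j))) ∧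
    (∀ (n : ℕ) (C : Circuit n), C.Computes (dft n) → ∀ θ : ℝ,
      (((Finset.univ.filter fun j : Fin n => C.gain (C.out j) ≤ (n : ℝ) ^ (1 / 2 - θ)).card : ℕ) : ℝ) *
        (θ * Real.logb 2 n) ≤ addCount C.gates) :=
  ⟨fun _ C hC I => gain_log C hC I, fun _ C hC θ => few_low_gain C hC θ⟩

end Vale.Agent.Results.P344.B_gain
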