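import Vale.Agent.Results.P344.A_main
import Vale.Agent.Results.P344.B_gain

namespace Vale.Agent.Results.P344.A00_master

open Vale.Agent.Lib.P344

/-- The statement of part 1. -/
def part1 : Prop :=
  (∀ (n : ℕ) (C : Circuit n), C.Computes (dft n) → ∀ T : Finset ℕ, T.card ≤ n →
        ((n - T.card : ℕ) : ℝ) / 2 * Real.logb 2 n - 1 / 2 * Real.logb 2 (n.choose T.card) ≤
          cost T 0 C.gates) ∧
      (∀ (n : ℕ) (C : Circuit n), C.Computes (dft n) → ∀ B : ℝ, 1 ≤ B →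
        ((n : ℝ) - bigCount B C.gates) / 2 * Real.logb 2 n - n / 2 ≤
          C.gates.length * max 1 (Real.logb 2 B)) ∧
      (∀ (n : ℕ) (C : Circuit n) (M : Matrix (Fin n) (Fin n) ℂ), C.Computes M →
        ∃ C' : Circuit n, C'.Computes M ∧ C'.gates.length = 3 * C.gates.length + n ∧
          bigCount 1 C'.gates ≤ n) ∧
      ((∃ c : ℝ, 0 < c ∧ ∃ N : ℕ, ∀ n, N ≤ n → ∀ C : Circuit n, C.Computes (dft n) →
          c * (n * Real.logb 2 n) ≤ C.gates.length) ↔
        (∃ c : ℝ, 0 < c ∧ ∃ N : ℕ, ∀ n, N ≤ n → ∀ C : Circuit n, C.Computes (dft n) →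
          bigCount 1 C.gates ≤ n → c * (n * Real.logb 2 n) ≤ C.gates.length))

/-- The statement of part 2. -/
def part2 : Prop :=
  (∀ (n : ℕ) (C : Circuit n), C.Computes (dft n) → ∀ I : Finset (Fin n),
        (I.card : ℝ) / 2 * Real.logb 2 n ≤
          addCount C.gates + ∑ j ∈ I, Real.logb 2 (C.gain (C.out j))) ∧
      (∀ (n : ℕ) (C : Circuit n), C.Computes (dft n) → ∀ θ : ℝ,
        (((Finset.univ.filter fun j : Fin n => C.gain (C.out j) ≤ (n : ℝ) ^ (1 / 2 - θ)).card : ℕ) : ℝ) *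
          (θ * Real.logb 2 n) ≤ addCount C.gates)

theorem result : part1 ∧ part2 :=
  ⟨@Vale.Agent.Results.P344.A_main.result, @Vale.Agent.Results.P344.B_gain.result⟩

end Vale.Agent.Results.P344.A00_master
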