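import Vale.Agent.Lib.P344.Gauge

namespace Vale.Agent.Results.P344.A_main

open Vale.Agent.Lib.P344

/-- (1) For every circuit for `F_n` and every set `T` of gate positions with `|T| ≤ n`, the gates
outside `T` have total price at least `((n - |T|)/2) log₂ n - (1/2) log₂ C(n, |T|)`.
(2) If at most `t` coefficients have modulus above `B`, then the number of gates `s` satisfies
`((n - t)/2) log₂ n - n/2 ≤ s * max 1 (log₂ B)`.
(3) Every circuit of size `s` for a matrix `M` can be rescaled to one of size `3 s + n` for `M` with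
at most `n` coefficients of modulus above `1`.
(4) Hence the lower bound `c n log₂ n` for all circuits (question Q1) is equivalent to the same
lower bound for circuits with at most `n` coefficients of modulus above `1`. -/
theorem result :
    (∀ (n : ℕ) (C : Circuit n), C.Computes (dft n) → ∀ T : Finset ℕ, T.card ≤ n →
      ((n - T.card : ℕ) : ℝ) / 2 * Real.logb 2 n - 1 / 2 * Real.logb 2 (n.choose T.card) ≤
        cost T 0 C.gates) ∧
    (∀ (n : ℕ) (C : Circuit n), C.Computes (dft n) → ∀ B : ℝ, 1 ≤ B →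
      ((n : ℝ) - bigCount B C.gates) / 2 * Real.logb 2 n - n / 2 ≤
        C.gates.length * max 1 (Real.logb 2 B)) ∧
    (∀ (n : ℕ) (C : Circuit n) (M : Matrix (Fin n) (Fin n) ℂ), C.Computes M →
      ∃ C' : Circuit n, C'.Computes M ∧ C'.gates.length = 3 * C.gates.length + n ∧
        bigCount 1 C'.gates ≤ n) ∧
    ((∃ c : ℝ, 0 < c ∧ ∃ N : ℕ, ∀ n, N ≤ n → ∀ C : Circuit n, C.Computes (dft n) →
        c * (n * Real.logb 2 n) ≤ C.gates.length) ↔
      (∃ c : ℝ, 0 < c ∧ ∃ N : ℕ, ∀ n, N ≤ n → ∀ C : Circuit n, C.Computes (dft n) →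
        bigCount 1 C.gates ≤ n → c * (n * Real.logb 2 n) ≤ C.gates.length)) :=
  ⟨fun _ C hC T hT => tradeoff C hC T hT,
   fun _ C hC B hB => threshold C hC B hB,
   fun _ C M hC => gauge C M hC,
   q1_iff_restricted⟩

end Vale.Agent.Results.P344.A_main
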